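import Vale.Agent.P226.Cert.Check

/-!
# The rounding functions of the checker
-/

open Real

namespace Vale.Agent.P226.Cert

lemma rdown_le (x : ℚ) : rdown x ≤ x := by
  rw [rdown, div_le_iff₀ (by norm_num)]
  exact Int.floor_le _

lemma newton_spec {W g : ℚ} (hW : 0 < W) (hg : 0 < g) : 0 < newton W g ∧ W ≤ newton W g ^ 2 := by
  set y := (g + W / g) / 2 with hy
  have hy0 : 0 < y := by positivity
  have h : y ≤ newton W g := by
    rw [newton, le_div_iff₀ (by norm_num)]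
    exact Int.le_ceil _
  refine ⟨hy0.trans_le h, le_trans ?_ (pow_le_pow_left₀ hy0.le h 2)⟩
  have e : y ^ 2 - W = ((g - W / g) / 2) ^ 2 := by rw [hy]; field_simp; ring
  nlinarith [sq_nonneg ((g - W / g) / 2)]

lemma sqUp_spec (W : ℚ) : 0 ≤ sqUp W ∧ W ≤ sqUp W ^ 2 ∧ (0 < W → 0 < sqUp W) := by
  unfold sqUp
  split
  · refine ⟨le_rfl, by norm_num; assumption, fun h => absurd h (not_lt.2 ‹_›)⟩
  · have hW : 0 < W := lt_of_not_ge ‹_›
    have h := newton_spec hW (newton_spec hW (newton_spec hW (newton_spec hW (newton_spec hW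
      (newton_spec hW one_pos).1).1).1).1).1
    exact ⟨h.1.le, h.2, fun _ => h.1⟩

lemma le_sqUp {x : ℝ} {W : ℚ} (hx : x ^ 2 ≤ (W : ℝ)) : x ≤ (sqUp W : ℝ) := by
  obtain ⟨h0, h, -⟩ := sqUp_spec W
  refine le_of_sq_le_sq (hx.trans ?_) (by exact_mod_cast h0)
  exact_mod_cast h

lemma sqLo_le_sqrt (W : ℚ) : (sqLo W : ℝ) ≤ √(W : ℝ) := by
  unfold sqLo
  split
  · simp
  · have hW : 0 < W := lt_of_not_ge ‹_›
    obtain ⟨-, h, hp⟩ := sqUp_spec W
    have hp := hp hW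
    have h1 : ((rdown (W / sqUp W) : ℚ) : ℝ) ≤ ((W / sqUp W : ℚ) : ℝ) := by
      exact_mod_cast rdown_le _
    refine h1.trans (Real.le_sqrt_of_sq_le ?_)
    have : (W / sqUp W) ^ 2 ≤ W := by
      rw [div_pow, div_le_iff₀ (by positivity)]
      nlinarith
    exact_mod_cast this

lemma sqLo_le {x : ℝ} {W : ℚ} (hx : 0 ≤ x) (h : (W : ℝ) ≤ x ^ 2) : (sqLo W : ℝ) ≤ x :=
  (sqLo_le_sqrt W).trans ((Real.sqrt_le_sqrt h).trans_eq (Real.sqrt_sq hx))

lemma piLo_lt : (piLo : ℝ) < π := by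
  rw [piLo]
  push_cast
  linarith [Real.pi_gt_d6]

lemma qc_pos (m : ℕ) : 0 < qc m := by
  unfold qc sw
  positivity

lemma sw_pos (m : ℕ) : 0 < sw m := by
  unfold sw
  positivity

end Vale.Agent.P226.Cert
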