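import Mathlib

/-!
# The checker for the scalar certificates
-/

namespace Vale.Agent.P226.Cert

/-- A linear lower bound `u r + v` for a cell measure, used on `[x0, x1]`. -/
structure Seg where
  x0 : ℚ
  x1 : ℚ
  u : ℚ
  v : ℚ

/-- A box for the third and fourth largest squared norms and the fifth largest norm. -/
structure Box where
  L2 : ℚ
  H2 : ℚ
  L3 : ℚ
  H3 : ℚ
  l : ℚ
  U : ℚ

/-- Rounding down to a multiple of `10⁻⁵`. -/
def rdown (x : ℚ) : ℚ := (⌊x * 100000⌋ : ℚ) / 100000

/-- One Newton step for the square root of `W`, rounded up. -/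
def newton (W g : ℚ) : ℚ := (⌈(g + W / g) / 2 * 100000⌉ : ℚ) / 100000

/-- An upper approximation of the square root. -/
def sqUp (W : ℚ) : ℚ :=
  if W ≤ 0 then 0 else newton W (newton W (newton W (newton W (newton W (newton W 1)))))

/-- A lower approximation of the square root. -/
def sqLo (W : ℚ) : ℚ := if W ≤ 0 then 0 else rdown (W / sqUp W)

/-- The smallest value of `u r + v - b r²` over the segments. -/
def alpha (segs : List Seg) (lo hi b : ℚ) : ℚ :=
  let r0 := sqLo lo
  let r1 := min (sqUp hi) (2 / 3)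
  segs.foldr (fun s acc =>
    let a := max s.x0 r0
    let z := min s.x1 r1
    if a ≤ z then min acc (min (s.u * a + s.v - b * a ^ 2) (s.u * z + s.v - b * z ^ 2)) else acc) 9

/-- The segments follow each other from `x`. -/
def covers : List Seg → ℚ → Bool
  | [], x => decide (2 / 3 ≤ x)
  | s :: l, x => decide (s.x0 ≤ x) && covers l s.x1

/-- The slope of the linear lower bound for tail cells. -/
def cs : ℚ := 4231 / 10000

/-- A lower bound for `π`. -/
def piLo : ℚ := 314159 / 100000

/-- The weight in `√(ab) ≤ (s a + b / s) / 2` used at index `m`. -/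
def sw (m : ℕ) : ℚ :=
  if m = 3 then 3 / 2 else if m = 4 then 2 else if m = 5 then 11 / 5 else if m = 6 then 23 / 10
  else if m = 7 then 11 / 5 else if m = 8 then 8 / 5 else 1

/-- The coefficient of the norm in the linearised drop condition. -/
def qc (m : ℕ) : ℚ := 1 + sw m / (2 * m)

/-- The coefficient of the tail sum in the linearised drop condition. -/
def ec (m : ℕ) : ℚ := 1 / (2 * sw m * m)

/-- The drop threshold from the determinant bound `W`. -/
def thr (m : ℕ) (W : ℚ) : ℚ := if W ≤ 0 then 0 else 9 / 2 * piLo * sqLo W / (m * (m + 1))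

/-- The determinant bound from the two forms of the pair bound. -/
def pairW (a1 L2 L3 e : ℚ) : ℚ :=
  max (a1 * (3 / 4 * L2 - 11 / 8 * e) - e ^ 2 / 8)
    (L2 * (L3 - 9 / 8 * e) - 1 / 144 - e / 24 - e ^ 2 / 8)

/-- One step of the lower bound for the tail sums. -/
def stepR (m : ℕ) (θ R : ℚ) : ℚ := max R ((θ / qc m + R) / (1 + ec m / qc m))

/-- The lower bound for the tail sum from index `m`, running `n` steps. -/
def chainR (θ : ℕ → ℚ) : ℕ → ℕ → ℚ
  | 0, _ => 0
  | n + 1, m => stepR m (θ m) (chainR θ n (m + 1))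

/-- The largest value of `d x` on `[lo, hi]`, negated. -/
def endMin (d lo hi : ℚ) : ℚ := min (d * lo) (d * hi)

/-- The top bound for four cells. -/
def top4 (segs : List Seg) (B : Box) (b b2 b3 : ℚ) : ℚ :=
  2 * alpha segs B.L2 (4 / 9) b + b
    + alpha segs B.L2 B.H2 b2 + endMin (b2 - b) B.L2 B.H2
    + alpha segs B.L3 B.H3 b3 + endMin (b3 - b) B.L3 B.H3

/-- The top bound for five cells. -/
def top5 (segs : List Seg) (B : Box) (b b2 b3 b4 : ℚ) : ℚ :=
  2 * alpha segs B.L2 (4 / 9) b + b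
    + alpha segs B.L2 B.H2 b2 + endMin (b2 - b) B.L2 B.H2
    + alpha segs B.L3 B.H3 b3 + endMin (b3 - b) B.L3 B.H3
    + alpha segs (B.l ^ 2) (B.U ^ 2) b4 + endMin (b4 - b) (B.l ^ 2) (B.U ^ 2)

/-- The bound for the tail sum left by the top bound `T`. -/
def budget (T b Em u : ℚ) : ℚ :=
  if cs - b * u ≤ 0 then (1 - T + b * Em) / cs
  else min ((1 - T + b * Em) / cs) ((1 - T) / (cs - b * u))

/-- Four cells on top. -/
def leaf4 (segs : List Seg) (M : ℕ) (B : Box) (b b2 b3 : ℚ) : Bool :=
  let T := top4 segs B b b2 b3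
  let Em := 1 - (3 * B.L2 + B.L3)
  let X := budget T b Em B.U
  let u := min B.U X
  let Y := X - B.l
  let e4 := min (u * X) Em
  let a1 := max B.L2 (1 - 4 / 9 - B.H2 - B.H3 - e4)
  let θ := fun m : ℕ =>
    thr m (pairW a1 B.L2 B.L3 (if m = 4 then e4 else min u (Y / ((m : ℚ) - 4)) * Y))
  let R5 := chainR θ (M - 4) 5
  decide (0 ≤ b) && decide (0 ≤ b2) && decide (0 ≤ b3) &&
    (decide (Em < 0) || decide (X < 0) || decide (X < B.l) ||
      decide (2 * (4 / 9) + B.H2 + B.H3 + e4 < 1) ||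
      (decide (4 ≤ M) && (decide (qc 4 * B.U + ec 4 * X < θ 4) || decide (X < B.l + R5) ||
        decide (X < stepR 4 (θ 4) R5))))

/-- Five cells on top. -/
def leaf5 (segs : List Seg) (M : ℕ) (B : Box) (b b2 b3 b4 : ℚ) : Bool :=
  let T := top5 segs B b b2 b3 b4
  let Em := 1 - (3 * B.L2 + B.L3 + B.l ^ 2)
  let X0 := budget T b Em B.U
  let X := budget T b Em (min B.U X0)
  let u := min B.U X
  let e5 := min (u * X) Em
  let a1 := max B.L2 (1 - 4 / 9 - B.H2 - B.H3 - B.U ^ 2 - e5)
  let θ := fun m : ℕ =>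
    thr m (pairW a1 B.L2 B.L3 (if m = 5 then e5 else min u (X / ((m : ℚ) - 4)) * X))
  decide (0 ≤ b) && decide (0 ≤ b2) && decide (0 ≤ b3) && decide (0 ≤ b4) &&
    (decide (Em < 0) || decide (X0 < 0) || decide (X < 0) ||
      decide (X < chainR θ (M - 4) 5))

/-- Three cells on top: the fourth cannot be dropped. -/
def leaf3 (segs : List Seg) (M : ℕ) (B : Box) (b b2 b3 : ℚ) : Bool :=
  let T := top4 segs B b b2 b3
  let X := if M ≤ 3 then 0 else budget T b (1 - (3 * B.L2 + B.L3)) B.U
  let e4 := min B.U X * X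
  let E := B.H3 + e4
  let s := 1 - E
  let s1 := 1 - B.L3
  let lo := B.L2 / s1
  let hi := min (4 / 9 / s) (1 - 2 * lo)
  let mid := 1 - hi - lo
  let W := s ^ 2 * ((1 - 2 * (hi ^ 2 + mid ^ 2 + lo ^ 2)) / 4)
    - E * ((1 - B.L3 - 2 * B.L2) / 2 + 2 / 7 * E)
  let h := sqUp B.H3
  decide (0 ≤ b) && decide (0 ≤ b2) && decide (0 ≤ b3) &&
    (decide (X < 0) || (decide (0 < s) && decide (0 < s1) && decide (lo ≤ mid) &&
      decide (0 ≤ (1 - 2 * (hi ^ 2 + mid ^ 2 + lo ^ 2)) / 4) &&
      decide (qc 3 * h + ec 3 * (h + X) < thr 3 W)))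

/-- A split tree; the slopes are in hundredths, the split points in units of `10⁻⁶`. -/
inductive Tree
  | none
  | l3 (b b2 b3 : ℕ)
  | l4 (b b2 b3 : ℕ)
  | l5 (b b2 b3 b4 : ℕ)
  | split (i : ℕ) (at_ : ℕ) (left right : Tree)

/-- A number of hundredths. -/
def hu (n : ℕ) : ℚ := (n : ℚ) / 100

/-- The box cannot occur. -/
def isEmpty (M : ℕ) (B : Box) : Bool :=
  decide (B.H2 < B.L3) || decide (min B.H3 B.H2 < B.l ^ 2) ||
    decide (1 < 3 * B.L2 + B.L3 + if 4 ≤ M then B.l ^ 2 else 0)

/-- The box after using that the squared norms are sorted. -/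
def clip (B : Box) : Box :=
  { B with H3 := min B.H3 B.H2, U := min B.U (sqUp (min B.H3 B.H2)) }

/-- The tree refutes the box. -/
def check (segs : List Seg) (M : ℕ) : Tree → Box → Bool
  | .none, B => isEmpty M B
  | .l3 b b2 b3, B => leaf3 segs M (clip B) (hu b) (hu b2) (hu b3)
  | .l4 b b2 b3, B => leaf4 segs M (clip B) (hu b) (hu b2) (hu b3)
  | .l5 b b2 b3 b4, B => decide (4 ≤ M) && leaf5 segs M (clip B) (hu b) (hu b2) (hu b3) (hu b4)
  | .split i a l r, B =>
    let x : ℚ := (a : ℚ) / 1000000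
    let B1 : Box := if i = 0 then { B with H2 := x } else if i = 1 then { B with H3 := x }
      else { B with U := x }
    let B2 : Box := if i = 0 then { B with L2 := x } else if i = 1 then { B with L3 := x }
      else { B with l := x }
    check segs M l B1 && check segs M r B2

end Vale.Agent.P226.Cert
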