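import Vale.Agent.P226.Cert.Check

/-!
# The scalar certificate for seven or eight cells
-/

namespace Vale.Agent.P226.Cert

/-- Linear lower bounds for the cell measures, seven or eight cells. -/
def segsEight : List Seg :=
  [⟨(0 : ℚ), 19969 / 100000, 4231 / 10000, (0 : ℚ)⟩,
   ⟨19969 / 100000, 35227 / 100000, 437247 / 1000000, -113 / 40000⟩,
   ⟨35227 / 100000, 2691 / 6250, 224037 / 500000, -6639 / 1000000⟩,
   ⟨2691 / 6250, 43901 / 100000, 455959 / 1000000, -5017 / 500000⟩,
   ⟨43901 / 100000, 73 / 160, 4069 / 6250, -95677 / 1000000⟩,
   ⟨73 / 160, 49309 / 100000, 28409 / 40000, -3067 / 25000⟩,
   ⟨49309 / 100000, 6713 / 12500, 808187 / 1000000, -21373 / 125000⟩,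
   ⟨6713 / 12500, 29647 / 50000, 12207 / 12500, -261407 / 1000000⟩,
   ⟨29647 / 50000, 12829 / 20000, 36621 / 25000, -275463 / 500000⟩,
   ⟨12829 / 20000, 2 / 3, 36621 / 12500, -745273 / 500000⟩]

/-- The split tree, seven or eight cells. -/
def treeEight : Tree :=
  (.split 1 125000
  (.split 0 166667
   (.split 2 176777
    (.split 1 62500
     (.split 0 83333
      (.l4 224 148 170)
      (.split 2 88388
       (.split 1 31250
        (.l4 224 63 239)
        (.split 0 125000
         (.l4 224 68 101)
         (.l4 119 59 101)))
       (.split 1 31250
        (.split 0 125000
         (.l4 224 68 239)
         (.l5 119 59 239 160))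
        (.l5 119 63 101 160))))
     (.split 0 83333
      (.l4 224 148 81)
      (.split 2 88388
       (.l4 119 63 72)
       (.l4 119 63 72))))
    (.split 1 62500
     (.split 0 83333
      (.l4 159 148 170)
      (.l5 119 63 170 101))
     (.split 0 83333
      (.l4 138 148 81)
      (.l5 87 63 72 82))))
   (.split 2 176777
    (.split 1 62500
     (.split 0 250000
      (.split 2 88388
       (.split 1 31250
        (.split 0 208333
         (.l4 119 53 239)
         (.l4 119 75 239))
        (.l4 119 74 101))
       (.split 1 31250
        (.split 0 208333
         (.split 2 132582
          (.split 1 15625
           (.l3 119 53 300)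
           (.l4 119 53 140))
          (.l5 119 53 239 137))
         (.split 2 132582
          (.split 1 15625
           (.l3 119 75 300)
           (.l4 119 75 140))
          (.split 1 15625
           .none
           (.l4 119 75 140))))
        (.l5 118 74 101 160)))
      (.split 2 88388
       (.l4 87 87 170)
       (.split 1 31250
        (.split 0 291667
         (.split 2 132582
          (.split 1 15625
           (.l3 118 78 300)
           (.l4 118 78 140))
          (.split 1 15625
           .none
           (.l5 87 78 140 137)))
         (.split 2 132582
          (.split 1 15625
           (.l3 86 87 300)
           (.l4 86 87 140))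
          (.split 1 15625
           .none
           (.l4 86 87 140))))
        (.l4 87 87 101))))
     (.split 0 250000
      (.split 2 88388
       (.l4 87 74 72)
       (.l5 87 74 72 160))
      (.l4 86 87 72)))
    (.split 1 62500
     (.split 0 250000
      (.split 1 31250
       .none
       (.l5 87 74 101 101))
      (.split 1 31250
       .none
       (.l4 87 87 101)))
     (.l5 86 78 72 82))))
  (.split 0 166667
   (.split 2 225000
    (.split 0 83333
     .none
     (.split 2 112500
      (.split 0 125000
       (.l4 119 68 64)
       (.split 2 56250
        (.l4 118 59 59)
        (.l5 87 59 59 251)))
      (.l5 87 63 59 126)))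
    (.split 0 83333
     .none
     (.l5 86 63 59 70)))
   (.split 2 225000
    (.split 1 187500
     (.split 0 250000
      (.split 2 112500
       (.split 1 156250
        (.split 0 208333
         (.split 2 56250
          (.l4 87 53 60)
          (.split 1 140625
           (.l4 87 53 62)
           (.split 0 187500
            (.l4 87 53 58)
            (.l4 87 73 58))))
         (.l4 86 75 60))
        (.split 0 208333
         (.split 2 56250
          (.l4 86 53 54)
          (.split 1 171875
           (.split 0 187500
            (.split 2 84375
             (.l4 87 53 55)
             (.l4 87 53 55))
            (.split 2 84375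
             (.l4 86 73 55)
             (.l4 86 73 55)))
           (.split 0 187500
            (.split 2 84375
             (.split 1 179687
              (.l4 86 53 53)
              (.split 0 177083
               .none
               (.l4 86 53 53)))
             (.l5 86 53 53 215))
            (.split 2 84375
             (.split 1 179687
              (.l4 86 73 53)
              (.l4 86 73 53))
             (.l5 86 73 53 215)))))
         (.split 2 56250
          (.l4 86 75 54)
          (.split 1 171875
           (.l4 86 75 55)
           (.split 0 229166
            (.split 2 84375
             (.l4 86 76 53)
             (.l5 86 76 53 215))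
            (.l4 86 73 53))))))
       (.split 1 156250
        (.l5 86 74 60 126)
        (.split 0 208333
         (.l5 86 53 54 126)
         (.l5 79 75 54 126))))
      (.split 2 112500
       (.l4 78 87 57)
       (.l5 78 87 57 126)))
     (.split 0 250000
      (.split 2 112500
       (.split 1 218750
        (.split 0 208333
         (.split 2 56250
          (.l4 86 53 73)
          (.split 0 187500
           (.split 2 84375
            (.l4 86 53 53)
            (.l4 86 53 53))
           (.split 2 84375
            (.split 1 197916
             (.split 0 197916
              (.split 2 70312
               (.l4 86 53 53)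
               (.split 1 192708
                (.l4 86 53 52)
                (.l4 86 53 74)))
              (.l4 86 72 53))
             (.l4 86 73 72))
            (.split 1 197916
             (.split 0 197916
              (.split 2 98437
               (.split 1 192708
                (.l4 86 53 52)
                (.l4 86 53 74))
               (.l4 86 53 53))
              (.split 2 98437
               (.l5 86 72 53 231)
               (.l4 86 72 53)))
             (.split 0 197916
              (.l5 86 53 73 215)
              (.l5 86 72 72 215))))))
         (.split 2 56250
          (.l4 79 75 73)
          (.split 1 203125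
           (.split 0 229166
            (.split 2 84375
             (.l4 86 76 73)
             (.l5 79 76 73 215))
            (.l4 79 73 73))
           (.split 0 229166
            (.l4 79 76 77)
            (.l4 79 73 77)))))
        (.split 0 208333
         .none
         (.split 2 56250
          (.l4 79 75 74)
          (.l4 79 75 74))))
       (.split 1 218750
        (.l5 79 74 73 126)
        (.l5 78 74 74 126)))
      (.split 2 112500
       (.l4 77 87 75)
       (.l5 77 87 75 126))))
    (.split 1 187500
     (.split 0 250000
      (.split 2 329006
       (.l5 79 74 57 79)
       (.split 1 156250
        (.l5 78 74 60 61)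
        (.l5 75 74 54 59)))
      (.l5 77 87 57 67))
     (.split 0 250000
      (.split 2 337500
       (.l5 78 74 75 78)
       (.split 1 218750
        (.split 0 208333
         (.split 2 393750
          (.l5 75 53 73 61)
          (.split 0 187500
           (.l5 75 53 53 54)
           (.l5 74 73 73 54)))
         (.l5 74 75 73 58))
        (.l5 73 74 74 58)))
      (.l4 77 87 75))))))

theorem coversEight : covers segsEight 0 = true := by decide +kernel

theorem checkEight : check segsEight 6 treeEight
    ⟨0, 333334 / 1000000, 0, 250000 / 1000000, 0, 9 / 20⟩ = true := by
  decide +kernel

end Vale.Agent.P226.Cert
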