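import Vale.Agent.P226.Cert.Approx
import Vale.Agent.P226.Full.Gram

/-!
# The scalar facts about a counterexample, and elementary consequences
-/

open Real

namespace Vale.Agent.P226.Cert

/-- What the cells of a counterexample satisfy: `r` the norms in decreasing order, `p` the cell
measures, `R` and `E` the tail sums of `r` and `r ^ 2`. -/
structure Facts (segs : List Seg) (M : ℕ) (r R E p : ℕ → ℝ) : Prop where
  r_nonneg : ∀ i, 0 ≤ r i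
  r_anti : ∀ i j, i ≤ j → r j ≤ r i
  r_le : ∀ i, r i ≤ 2 / 3
  p_ge : ∀ i, i < 5 → ∀ s ∈ segs, (s.u : ℝ) * r i + (s.v : ℝ) ≤ p i
  R_nonneg : ∀ m, 0 ≤ R m
  E_nonneg : ∀ m, 0 ≤ E m
  R_succ : ∀ m, R m = r m + R (m + 1)
  E_succ : ∀ m, E m = r m ^ 2 + E (m + 1)
  E_le : ∀ m, E m ≤ r m * R m
  norm : r 0 ^ 2 + r 1 ^ 2 + r 2 ^ 2 + r 3 ^ 2 + E 4 = 1
  sum4 : p 0 + p 1 + p 2 + p 3 + (cs : ℝ) * R 4 ≤ 1
  sum5 : p 0 + p 1 + p 2 + p 3 + p 4 + (cs : ℝ) * R 5 ≤ 1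
  small : M ≤ 3 → R 4 = 0
  drop2 : ∀ m, 4 ≤ m → m ≤ M → ∀ A B e : ℝ, 0 ≤ B → B ≤ r 2 ^ 2 → A ≤ r 1 ^ 2 →
    B ≤ A → E m ≤ e →
    0 < A * (3 / 4 * B - 11 / 8 * e) - e ^ 2 / 8 →
    9 * π / 2 * √(A * (3 / 4 * B - 11 / 8 * e) - e ^ 2 / 8) / ((m : ℝ) * ((m : ℝ) + 1)) ≤
      r m + √(E m) / m
  drop4 : ∀ m, 4 ≤ m → m ≤ M → ∀ A B e : ℝ, 0 ≤ A → B ≤ r 3 ^ 2 → A ≤ r 2 ^ 2 →
    E m ≤ e →
    0 < A * (B - 9 / 8 * e) - 1 / 144 - e / 24 - e ^ 2 / 8 →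
    9 * π / 2 * √(A * (B - 9 / 8 * e) - 1 / 144 - e / 24 - e ^ 2 / 8) /
      ((m : ℝ) * ((m : ℝ) + 1)) ≤ r m + √(E m) / m
  drop3 : 3 ≤ M → ∀ W : ℝ, 0 < W → W ≤ Full.heron (r 0 ^ 2) (r 1 ^ 2) (r 2 ^ 2) -
      E 3 * ((r 0 ^ 2 + r 1 ^ 2 - r 2 ^ 2) / 2 + 2 / 7 * E 3) →
    9 * π / 2 * √W / 12 ≤ r 3 + √(E 3) / 3

/-- The ordered squared norms and the fifth norm lie in the box. -/
structure Mem (B : Box) (r : ℕ → ℝ) : Prop where
  L2 : (B.L2 : ℝ) ≤ r 2 ^ 2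
  H2 : r 2 ^ 2 ≤ (B.H2 : ℝ)
  L3 : (B.L3 : ℝ) ≤ r 3 ^ 2
  H3 : r 3 ^ 2 ≤ (B.H3 : ℝ)
  l : (B.l : ℝ) ≤ r 4
  U : r 4 ≤ (B.U : ℝ)
  l_nonneg : 0 ≤ B.l
  L2_nonneg : 0 ≤ B.L2
  L3_nonneg : 0 ≤ B.L3

lemma endMin_le {d lo hi : ℚ} {x : ℝ} (h1 : (lo : ℝ) ≤ x) (h2 : x ≤ (hi : ℝ)) :
    (endMin d lo hi : ℝ) ≤ (d : ℝ) * x := by
  rw [endMin]
  push_cast
  rcases le_total (0 : ℝ) (d : ℝ) with h | h
  · exact (min_le_left _ _).trans (mul_le_mul_of_nonneg_left h1 h)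
  · exact (min_le_right _ _).trans (mul_le_mul_of_nonpos_left h2 h)

/-- The quantity minimised by `alpha`. -/
lemma alpha_le {segs : List Seg} {lo hi b : ℚ} (hcov : covers segs 0 = true) (hb : 0 ≤ b)
    {x p : ℝ} (hx0 : 0 ≤ x) (hx1 : x ≤ 2 / 3) (hlo : (lo : ℝ) ≤ x ^ 2) (hhi : x ^ 2 ≤ (hi : ℝ))
    (hp : ∀ s ∈ segs, (s.u : ℝ) * x + (s.v : ℝ) ≤ p) :
    (alpha segs lo hi b : ℝ) + (b : ℝ) * x ^ 2 ≤ p := by
  set r0 := sqLo lo with hr0
  set r1 := min (sqUp hi) (2 / 3) with hr1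
  have h0 : (r0 : ℝ) ≤ x := sqLo_le hx0 hlo
  have h1 : x ≤ (r1 : ℝ) := by
    rw [hr1]; push_cast; exact le_min (le_sqUp hhi) hx1
  have key : ∀ (l : List Seg) (y : ℚ), covers l y = true → (y : ℝ) ≤ x →
      (∀ s ∈ l, (s.u : ℝ) * x + (s.v : ℝ) ≤ p) → l ≠ [] ∨ (y : ℝ) < 2 / 3 →
      ((l.foldr (fun s acc =>
        let a := max s.x0 r0
        let z := min s.x1 r1
        if a ≤ z then min acc (min (s.u * a + s.v - b * a ^ 2) (s.u * z + s.v - b * z ^ 2))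
        else acc) 9 : ℚ) : ℝ) + (b : ℝ) * x ^ 2 ≤ p := by
    intro l
    induction l with
    | nil =>
      intro y hy _ _ h
      rcases h with h | h
      · exact absurd rfl h
      · simp only [covers, decide_eq_true_eq] at hy
        have : ((2 / 3 : ℚ) : ℝ) ≤ (y : ℝ) := by exact_mod_cast hy
        push_cast at this
        linarith
    | cons s l ih =>
      intro y hy hyx hs _
      simp only [covers, Bool.and_eq_true, decide_eq_true_eq] at hy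
      have hs0 : (s.x0 : ℝ) ≤ x := le_trans (by exact_mod_cast hy.1) hyx
      simp only [List.foldr_cons]
      set acc := l.foldr (fun s acc =>
        let a := max s.x0 r0
        let z := min s.x1 r1
        if a ≤ z then min acc (min (s.u * a + s.v - b * a ^ 2) (s.u * z + s.v - b * z ^ 2))
        else acc) 9 with hacc
      by_cases hc : x ≤ (s.x1 : ℝ)
      · have ha : ((max s.x0 r0 : ℚ) : ℝ) ≤ x := by push_cast; exact max_le hs0 h0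
        have hz : x ≤ ((min s.x1 r1 : ℚ) : ℝ) := by push_cast; exact le_min hc h1
        have haz : max s.x0 r0 ≤ min s.x1 r1 := by exact_mod_cast ha.trans hz
        rw [if_pos haz]
        generalize max s.x0 r0 = a at ha haz ⊢
        generalize min s.x1 r1 = z at hz haz ⊢
        refine le_trans ?_ (hs s (List.mem_cons_self ..))
        have hbr : (0 : ℝ) ≤ (b : ℝ) := by exact_mod_cast hb
        push_cast
        have e1 := min_le_right ((acc : ℝ))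
          (min ((s.u : ℝ) * a + s.v - b * (a : ℝ) ^ 2) ((s.u : ℝ) * z + s.v - b * (z : ℝ) ^ 2))
        rcases le_total (0 : ℝ) ((s.u : ℝ) - b * ((a : ℝ) + x)) with h | h
        · have : (s.u : ℝ) * a + s.v - b * (a : ℝ) ^ 2 ≤ (s.u : ℝ) * x + s.v - b * x ^ 2 := by
            nlinarith [mul_nonneg h (sub_nonneg.2 ha)]
          linarith [min_le_left ((s.u : ℝ) * a + s.v - b * (a : ℝ) ^ 2)
            ((s.u : ℝ) * z + s.v - b * (z : ℝ) ^ 2)]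
        · have h' : (s.u : ℝ) - b * ((z : ℝ) + x) ≤ 0 := by
            nlinarith [mul_le_mul_of_nonneg_left (ha.trans hz) hbr]
          have : (s.u : ℝ) * z + s.v - b * (z : ℝ) ^ 2 ≤ (s.u : ℝ) * x + s.v - b * x ^ 2 := by
            nlinarith [mul_nonpos_of_nonpos_of_nonneg h' (sub_nonneg.2 hz)]
          linarith [min_le_right ((s.u : ℝ) * a + s.v - b * (a : ℝ) ^ 2)
            ((s.u : ℝ) * z + s.v - b * (z : ℝ) ^ 2)]
      · push Not at hc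
        have hne : l ≠ [] ∨ (s.x1 : ℝ) < 2 / 3 := Or.inr (hc.trans_le hx1)
        have h := ih s.x1 hy.2 hc.le (fun t ht => hs t (List.mem_cons_of_mem _ ht)) hne
        split
        · refine le_trans ?_ h
          rw [Rat.cast_min]
          exact add_le_add (min_le_left _ _) le_rfl
        · exact h
  exact key segs 0 hcov (by simpa using hx0) hp (Or.inr (by norm_num))

variable {segs : List Seg} {M : ℕ} {r R E p : ℕ → ℝ}

lemma budget_spec {T b Em u : ℚ} {X e : ℝ} (h : (T : ℝ) - (b : ℝ) * e + (cs : ℝ) * X ≤ 1)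
    (hb : 0 ≤ b) (h1 : e ≤ (Em : ℝ)) (h2 : e ≤ (u : ℝ) * X) : X ≤ (budget T b Em u : ℝ) := by
  have hbr : (0 : ℝ) ≤ (b : ℝ) := by exact_mod_cast hb
  have hcs : (0 : ℝ) < (cs : ℝ) := by rw [cs]; norm_num
  have hA : X ≤ (1 - (T : ℝ) + (b : ℝ) * (Em : ℝ)) / (cs : ℝ) := by
    rw [le_div_iff₀ hcs]
    nlinarith [mul_le_mul_of_nonneg_left h1 hbr]
  unfold budget
  split
  · push_cast; exact hA
  · push_cast
    refine le_min hA ?_
    have hc : (0 : ℝ) < (cs : ℝ) - (b : ℝ) * (u : ℝ) := by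
      have : ((0 : ℚ) : ℝ) < ((cs - b * u : ℚ) : ℝ) := by exact_mod_cast lt_of_not_ge ‹_›
      push_cast at this
      linarith
    rw [le_div_iff₀ hc]
    nlinarith [mul_le_mul_of_nonneg_left h2 hbr]

lemma linear_amgm {m : ℕ} (hm : 0 < m) {x X e : ℝ} (hx : 0 ≤ x) (hX : 0 ≤ X) (he : e ≤ x * X) :
    x + √e / m ≤ (qc m : ℝ) * x + (ec m : ℝ) * X := by
  have hs : (0 : ℝ) < (sw m : ℝ) := by exact_mod_cast sw_pos m
  have hm' : (0 : ℝ) < (m : ℝ) := by exact_mod_cast hm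
  have h1 : √e ≤ ((sw m : ℝ) * x + X / (sw m : ℝ)) / 2 := by
    refine (Real.sqrt_le_sqrt he).trans ?_
    rw [Real.sqrt_le_left (by positivity)]
    have e2 : (((sw m : ℝ) * x + X / (sw m : ℝ)) / 2) ^ 2 - x * X =
        (((sw m : ℝ) * x - X / (sw m : ℝ)) / 2) ^ 2 := by field_simp; ring
    nlinarith [sq_nonneg ((((sw m : ℝ) * x - X / (sw m : ℝ))) / 2)]
  have h2 : √e / m ≤ ((sw m : ℝ) * x + X / (sw m : ℝ)) / 2 / m := by gcongr
  rw [qc, ec]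
  push_cast
  have e3 : (1 + (sw m : ℝ) / (2 * (m : ℝ))) * x + 1 / (2 * (sw m : ℝ) * (m : ℝ)) * X =
      x + ((sw m : ℝ) * x + X / (sw m : ℝ)) / 2 / m := by field_simp; ring
  linarith

lemma thr_spec {m : ℕ} {W : ℚ} {y : ℝ} (hy : 0 ≤ y)
    (h : 0 < W → 9 * π / 2 * √(W : ℝ) / ((m : ℝ) * ((m : ℝ) + 1)) ≤ y) :
    (thr m W : ℝ) ≤ y := by
  unfold thr
  split
  · simpa using hy
  · have hW : 0 < W := lt_of_not_ge ‹_›
    refine le_trans ?_ (h hW)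
    push_cast
    have h1 : (piLo : ℝ) * (sqLo W : ℝ) ≤ π * √(W : ℝ) := by
      have hp : (0 : ℝ) ≤ (piLo : ℝ) := by rw [piLo]; norm_num
      rcases le_total 0 (sqLo W : ℝ) with hs | hs
      · exact mul_le_mul piLo_lt.le (sqLo_le_sqrt W) hs Real.pi_pos.le
      · exact (mul_nonpos_of_nonneg_of_nonpos hp hs).trans
          (mul_nonneg Real.pi_pos.le (Real.sqrt_nonneg _))
    apply div_le_div_of_nonneg_right ?_ (by positivity)
    linarith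

/-- The drop condition with both forms of the pair bound. -/
lemma drop_thr (hF : Facts segs M r R E p) {m : ℕ} (hm : 4 ≤ m) (hmM : m ≤ M) {a1 L2 L3 e : ℚ}
    (h21 : (a1 : ℝ) ≤ r 1 ^ 2) (hL2 : (L2 : ℝ) ≤ r 2 ^ 2) (hL21 : L2 ≤ a1)
    (hL3 : (L3 : ℝ) ≤ r 3 ^ 2) (h0 : 0 ≤ L2) (he : E m ≤ (e : ℝ)) :
    (thr m (pairW a1 L2 L3 e) : ℝ) ≤ (qc m : ℝ) * r m + (ec m : ℝ) * R m := by
  refine le_trans ?_ (linear_amgm (by omega) (hF.r_nonneg m) (hF.R_nonneg m) (hF.E_le m))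
  refine thr_spec (add_nonneg (hF.r_nonneg m) (by positivity)) fun hW => ?_
  have hW' : (0 : ℝ) < ((pairW a1 L2 L3 e : ℚ) : ℝ) := by exact_mod_cast hW
  rw [pairW] at hW' ⊢
  push_cast at hW' ⊢
  rcases max_choice ((a1 : ℝ) * (3 / 4 * (L2 : ℝ) - 11 / 8 * (e : ℝ)) - (e : ℝ) ^ 2 / 8)
    ((L2 : ℝ) * ((L3 : ℝ) - 9 / 8 * (e : ℝ)) - 1 / 144 - (e : ℝ) / 24 - (e : ℝ) ^ 2 / 8)
    with h | h <;> rw [h] at hW' ⊢
  · exact hF.drop2 m hm hmM _ _ _ (by exact_mod_cast h0) hL2 h21 (by exact_mod_cast hL21) he hW'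
  · exact hF.drop4 m hm hmM _ _ _ (by exact_mod_cast h0) hL3 hL2 he hW'

lemma stepR_spec (hF : Facts segs M r R E p) {m : ℕ} {θ Rn : ℚ} (hR : (Rn : ℝ) ≤ R (m + 1))
    (hθ : (θ : ℝ) ≤ (qc m : ℝ) * r m + (ec m : ℝ) * R m) :
    (stepR m θ Rn : ℝ) ≤ R m := by
  have hs := hF.R_succ m
  have hq : (0 : ℝ) < (qc m : ℝ) := by exact_mod_cast qc_pos m
  have he : (0 : ℝ) ≤ (ec m : ℝ) := by
    have := sw_pos m
    have : (0 : ℚ) ≤ ec m := by unfold ec; positivity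
    exact_mod_cast this
  rw [stepR]
  push_cast
  refine max_le (by linarith [hF.r_nonneg m]) ?_
  rw [div_le_iff₀ (by positivity)]
  have : (θ : ℝ) / (qc m : ℝ) ≤ r m + (ec m : ℝ) / (qc m : ℝ) * R m := by
    rw [div_le_iff₀ hq, add_mul, mul_comm (_ / _) (R m), mul_assoc, div_mul_cancel₀ _ hq.ne']
    linarith
  linarith

lemma chainR_spec (hF : Facts segs M r R E p) (θ : ℕ → ℚ) : ∀ n m, m + n ≤ M + 1 →
    (∀ j, m ≤ j → j < m + n → (θ j : ℝ) ≤ (qc j : ℝ) * r j + (ec j : ℝ) * R j) →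
    (chainR θ n m : ℝ) ≤ R m := by
  intro n
  induction n with
  | zero => intro m _ _; simpa [chainR] using hF.R_nonneg m
  | succ n ih =>
    intro m hm h
    exact stepR_spec hF (ih (m + 1) (by omega) fun j h1 h2 => h j (by omega) (by omega))
      (h m le_rfl (by omega))

/-- Later norms are small compared with the tail sums. -/
lemma sub_mul_le_R (hF : Facts segs M r R E p) : ∀ m j, j ≤ m →
    ((m - j : ℕ) : ℝ) * r m + R m ≤ R j := by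
  intro m j hj
  induction m, hj using Nat.le_induction with
  | base => simp
  | succ m hm ih =>
    have h1 := hF.R_succ m
    have h2 := hF.r_anti m (m + 1) (Nat.le_succ m)
    rw [Nat.succ_sub hm, Nat.cast_succ]
    have h3 := mul_le_mul_of_nonneg_left h2 (Nat.cast_nonneg (α := ℝ) (m - j))
    linarith

end Vale.Agent.P226.Cert
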