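import Vale.Agent.P226.Cert.Check

/-!
# The scalar certificate for five cells
-/

namespace Vale.Agent.P226.Cert

/-- Linear lower bounds for the cell measures, five cells. -/
def segsFive : List Seg :=
  [⟨(0 : ℚ), 19969 / 100000, 4231 / 10000, (0 : ℚ)⟩,
   ⟨19969 / 100000, 35227 / 100000, 437247 / 1000000, -113 / 40000⟩,
   ⟨35227 / 100000, 38997 / 100000, 224037 / 500000, -6639 / 1000000⟩,
   ⟨38997 / 100000, 4659 / 10000, 636619 / 1000000, -16033 / 200000⟩,
   ⟨4659 / 10000, 51019 / 100000, 373427 / 500000, -32881 / 250000⟩,
   ⟨51019 / 100000, 57019 / 100000, 415873 / 500000, -34967 / 200000⟩,
   ⟨57019 / 100000, 2 / 3, 153743 / 125000, -80377 / 200000⟩]

/-- The split tree, five cells. -/
def treeFive : Tree :=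
  (.split 1 125000
  (.split 0 166667
   (.split 2 176777
    (.split 1 62500
     (.split 0 83333
      (.split 2 88388
       (.split 1 31250
        (.l4 210 148 239)
        (.split 0 41666
         (.l4 210 207 112)
         (.l4 210 89 101)))
       (.l5 210 148 170 160))
      (.split 2 88388
       (.split 1 31250
        (.split 0 125000
         (.l4 100 68 239)
         (.split 2 44194
          (.l4 100 61 239)
          (.split 1 15625
           (.l4 100 61 300)
           (.l4 100 61 140))))
        (.l4 100 65 101))
       (.split 1 31250
        (.split 0 125000
         (.l5 100 68 239 160)
         (.split 2 132582
          (.split 1 15625
           (.l3 100 61 300)
           (.l4 100 61 140))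
          (.split 1 15625
           .none
           (.l4 100 61 140))))
        (.l4 100 65 101))))
     (.split 0 83333
      (.split 2 88388
       (.split 0 41666
        .none
        (.l4 100 89 81))
       (.l4 100 148 81))
      (.l4 99 65 72)))
    (.split 1 62500
     (.split 0 83333
      (.split 1 31250
       .none
       (.l4 116 148 101))
      (.l5 100 65 170 101))
     (.l5 99 108 72 82)))
   (.split 2 176777
    (.split 1 62500
     (.split 0 250000
      (.split 2 88388
       (.split 1 31250
        (.split 0 208333
         (.l4 100 74 239)
         (.l4 99 77 239))
        (.l4 99 73 101))
       (.split 1 31250
        (.split 0 208333
         (.split 2 132582
          (.split 1 15625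
           (.l3 100 74 300)
           (.l4 100 74 140))
          (.split 1 15625
           .none
           (.l4 100 74 140)))
         (.split 2 132582
          (.split 1 15625
           (.l3 99 77 300)
           (.l4 99 77 140))
          (.split 1 15625
           .none
           (.l4 99 77 140))))
        (.l4 99 73 101)))
      (.split 2 88388
       (.l4 99 77 170)
       (.split 1 31250
        (.split 0 291667
         (.split 2 132582
          (.split 1 15625
           (.l3 99 79 300)
           (.l4 99 79 140))
          (.split 1 15625
           .none
           (.l4 99 79 140)))
         (.split 2 132582
          (.split 1 15625
           (.l3 99 75 300)
           (.l3 99 75 140))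
          (.split 1 15625
           .none
           (.l5 75 75 140 137))))
        (.split 0 291667
         (.l4 99 79 101)
         (.l4 75 75 101)))))
     (.split 0 250000
      (.split 2 88388
       (.split 1 93750
        (.l4 99 73 79)
        (.split 0 208333
         (.l4 99 74 66)
         (.l4 99 77 66)))
       (.split 1 93750
        (.l5 99 73 79 160)
        (.split 0 208333
         (.l5 99 74 66 160)
         (.l5 77 77 66 160))))
      (.l4 77 77 72)))
    (.split 1 62500
     (.split 0 250000
      (.split 1 31250
       .none
       (.l4 99 73 101))
      (.split 1 31250
       .none
       (.l5 77 77 101 101)))
     (.l5 77 77 72 82))))
  (.split 0 166667
   (.split 2 225000
    (.split 0 83333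
     .none
     (.split 2 112500
      (.split 0 125000
       (.l4 99 68 64)
       (.split 2 56250
        (.l4 99 61 61)
        (.split 1 145833
         (.l4 99 61 61)
         (.split 0 145833
          (.l4 99 61 59)
          (.split 2 84375
           (.l4 99 80 80)
           (.l4 99 80 80))))))
      (.l5 99 65 61 126)))
    (.split 0 83333
     .none
     (.l5 77 65 61 72)))
   (.split 2 225000
    (.split 1 187500
     (.split 0 250000
      (.split 2 112500
       (.split 1 156250
        (.split 0 208333
         (.split 2 56250
          (.l4 99 74 60)
          (.split 1 140625
           (.split 0 187500
            (.l4 99 76 62)
            (.split 2 84375
             (.l4 99 72 62)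
             (.l5 99 72 62 215)))
           (.split 0 187500
            (.split 2 84375
             (.split 1 148437
              (.l4 99 76 59)
              (.split 0 177083
               (.l4 99 77 81)
               (.l4 99 75 81)))
             (.split 1 148437
              (.l4 99 76 59)
              (.l5 99 76 81 215)))
            (.split 2 84375
             (.split 1 148437
              (.split 0 197916
               (.l4 99 73 59)
               (.l4 99 71 59))
              (.split 0 197916
               (.l4 99 73 81)
               (.l4 77 71 81)))
             (.split 1 148437
              (.l5 77 72 59 215)
              (.split 0 197916
               (.split 2 98437
                (.split 1 152343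
                 (.split 0 192708
                  (.split 2 91406
                   (.l4 99 73 58)
                   (.l4 99 73 58))
                  (.split 2 91406
                   (.split 1 150390
                    (.l5 77 72 58 241)
                    (.split 0 195312
                     (.l5 77 72 58 241)
                     (.split 2 87890
                      (.l4 99 72 58)
                      (.l5 77 72 58 236))))
                   (.l5 77 72 58 223)))
                 (.l5 77 73 81 231))
                (.l5 77 73 81 201))
               (.split 2 98437
                (.split 1 152343
                 (.split 0 203124
                  (.l4 77 71 58)
                  (.l4 77 70 58))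
                 (.l4 77 71 81))
                (.l4 77 71 81))))))))
         (.split 2 56250
          (.l4 77 77 60)
          (.split 1 140625
           (.l4 77 77 62)
           (.split 0 229166
            (.split 2 84375
             (.l4 77 79 59)
             (.split 1 148437
              (.l4 77 79 59)
              (.split 0 218749
               (.split 2 98437
                (.l4 77 69 81)
                (.l4 77 69 81))
               (.l4 77 79 81))))
            (.l4 77 76 59)))))
        (.split 0 208333
         (.split 2 56250
          (.l4 77 74 77)
          (.split 1 171875
           (.split 0 187500
            (.split 2 84375
             (.split 1 164062
              (.split 0 177083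
               (.l4 99 77 80)
               (.split 2 70312
                (.l4 99 75 80)
                (.split 1 160156
                 (.l4 99 75 80)
                 (.split 0 182291
                  (.l4 99 75 79)
                  (.l4 99 74 79)))))
              (.split 0 177083
               (.split 2 70312
                (.l4 99 77 78)
                (.split 1 167968
                 (.l4 99 77 78)
                 (.split 0 171875
                  (.l4 99 77 77)
                  (.split 2 77343
                   (.l4 99 76 77)
                   (.split 1 169921
                    (.split 0 174479
                     (.l4 99 76 77)
                     (.l4 99 76 77))
                    (.split 0 174479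
                     (.l4 99 76 77)
                     (.split 2 80859
                      (.l4 99 76 77)
                      (.l5 77 76 77 256))))))))
               (.l4 77 75 78)))
             (.l5 77 76 79 215))
            (.split 2 84375
             (.split 1 164062
              (.split 0 197916
               (.l4 77 73 80)
               (.l4 77 71 80))
              (.split 0 197916
               (.l4 77 73 78)
               (.l4 77 71 78)))
             (.split 1 164062
              (.split 0 197916
               (.l5 77 73 80 215)
               (.split 2 98437
                (.l4 77 71 80)
                (.l4 77 71 80)))
              (.split 0 197916
               (.l5 77 73 78 215)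
               (.split 2 98437
                (.l4 77 71 78)
                (.l4 77 71 78))))))
           (.split 0 187500
            (.split 2 84375
             (.split 1 179687
              (.split 0 177083
               (.split 2 70312
                (.l4 99 77 76)
                (.split 0 171875
                 (.l4 99 77 77)
                 (.split 2 77343
                  (.l4 99 76 76)
                  (.split 1 174479
                   (.split 0 174479
                    (.split 2 80859
                     (.l4 99 76 76)
                     (.l5 77 76 76 256))
                    (.split 2 80859
                     (.l4 99 76 76)
                     (.l5 77 76 76 256)))
                   (.l4 77 76 76)))))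
               (.split 2 70312
                (.l4 77 75 76)
                (.split 1 175781
                 (.split 0 182291
                  (.l4 77 75 76)
                  (.l4 77 74 76))
                 (.split 0 182291
                  (.l4 77 75 76)
                  (.l4 77 74 76)))))
              (.split 0 177083
               .none
               (.split 2 70312
                (.l4 77 75 74)
                (.split 1 183593
                 (.split 0 182291
                  (.l4 77 75 75)
                  (.l4 77 74 75))
                 (.l4 77 75 74)))))
             (.l5 77 76 75 215))
            (.split 2 84375
             (.split 1 179687
              (.split 0 197916
               (.l4 77 73 76)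
               (.l4 77 71 76))
              (.l4 77 72 74))
             (.split 1 179687
              (.split 0 197916
               (.l5 77 73 76 215)
               (.split 2 98437
                (.l4 77 71 76)
                (.l4 77 71 76)))
              (.split 0 197916
               (.l5 77 73 74 215)
               (.split 2 98437
                (.l4 77 71 74)
                (.l4 77 71 74))))))))
         (.split 2 56250
          (.l4 77 77 77)
          (.split 1 171875
           (.split 0 229166
            (.split 2 84375
             (.l4 77 79 79)
             (.split 1 164062
              (.split 0 218749
               (.split 2 98437
                (.l4 77 69 80)
                (.l4 77 69 80))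
               (.l4 77 79 80))
              (.l4 77 79 78)))
            (.l4 77 76 79))
           (.split 0 229166
            (.split 2 84375
             (.l4 77 79 75)
             (.split 1 179687
              (.l4 77 79 76)
              (.split 0 218749
               (.split 2 98437
                (.l4 77 69 74)
                (.l4 77 69 74))
               (.l4 77 79 74))))
            (.l4 77 76 75))))))
       (.l5 77 73 77 126))
      (.split 2 112500
       (.l4 77 77 77)
       (.l5 74 77 77 126)))
     (.split 0 250000
      (.split 2 112500
       (.split 1 218750
        (.split 0 208333
         (.split 2 56250
          (.l4 77 74 72)
          (.split 0 187500
           (.split 2 84375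
            (.split 0 177083
             .none
             (.l4 77 75 74))
            (.l5 77 76 74 215))
           (.split 2 84375
            (.l4 77 72 72)
            (.split 1 197916
             (.split 0 197916
              (.split 2 98437
               (.split 1 192708
                (.l4 77 73 73)
                (.l4 77 73 72))
               (.l4 77 73 73))
              (.split 2 98437
               (.l4 77 71 73)
               (.l4 77 71 73)))
             (.split 0 197916
              (.split 2 98437
               (.l4 77 73 72)
               (.l4 77 73 72))
              (.split 2 98437
               (.l4 77 71 71)
               (.l4 77 71 71)))))))
         (.split 2 56250
          (.l4 77 77 71)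
          (.split 1 203125
           (.split 0 229166
            (.split 2 84375
             (.l4 77 79 72)
             (.split 1 195312
              (.split 0 218749
               (.split 2 98437
                (.l4 77 69 73)
                (.l4 77 69 73))
               (.l4 77 79 73))
              (.split 0 218749
               (.split 2 98437
                (.l4 77 69 71)
                (.l4 77 69 71))
               (.l4 77 79 71))))
            (.l4 77 76 72))
           (.split 0 229166
            (.split 2 84375
             (.l4 77 79 70)
             (.split 1 210937
              (.split 0 218749
               (.split 2 98437
                (.l4 77 69 70)
                (.l4 77 69 70))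
               (.l4 77 79 70))
              (.split 0 218749
               (.l4 77 69 69)
               (.l4 77 79 69))))
            (.l4 77 76 70)))))
        (.split 0 208333
         .none
         (.l4 77 77 77)))
       (.l5 77 73 77 126))
      (.split 2 112500
       (.l4 73 77 77)
       (.l5 73 77 77 126))))
    (.l5 76 77 74 72))))

theorem coversFive : covers segsFive 0 = true := by decide +kernel

theorem checkFive : check segsFive 4 treeFive
    ⟨0, 333334 / 1000000, 0, 250000 / 1000000, 0, 9 / 20⟩ = true := by
  decide +kernel

end Vale.Agent.P226.Cert
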