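import Vale.Agent.P226.Cert.Check

/-!
# The scalar certificate for four cells with a small fourth cell
-/

namespace Vale.Agent.P226.Cert

/-- Linear lower bounds for the cell measures, four cells with a small fourth cell. -/
def segsFour : List Seg :=
  [⟨(0 : ℚ), 19969 / 100000, 4231 / 10000, (0 : ℚ)⟩,
   ⟨19969 / 100000, 29189 / 100000, 437247 / 1000000, -113 / 40000⟩,
   ⟨29189 / 100000, 35467 / 100000, 8138 / 15625, -27223 / 1000000⟩,
   ⟨35467 / 100000, 41533 / 100000, 576921 / 1000000, -11779 / 250000⟩,
   ⟨41533 / 100000, 23087 / 50000, 12931 / 20000, -15207 / 200000⟩,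
   ⟨23087 / 50000, 24853 / 50000, 141509 / 200000, -104199 / 1000000⟩,
   ⟨24853 / 50000, 52587 / 100000, 12207 / 15625, -70417 / 500000⟩,
   ⟨52587 / 100000, 54933 / 100000, 85227 / 100000, -89091 / 500000⟩,
   ⟨54933 / 100000, 57067 / 100000, 937497 / 1000000, -9 / 40⟩,
   ⟨57067 / 100000, 58747 / 100000, 16276 / 15625, -56889 / 200000⟩,
   ⟨58747 / 100000, 30143 / 50000, 28409 / 25000, -85019 / 250000⟩,
   ⟨30143 / 50000, 62027 / 100000, 12931 / 10000, -434569 / 1000000⟩,
   ⟨62027 / 100000, 64107 / 100000, 24414 / 15625, -601667 / 1000000⟩,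
   ⟨64107 / 100000, 32907 / 50000, 36621 / 15625, -441 / 400⟩,
   ⟨32907 / 50000, 2 / 3, 73242 / 15625, -529 / 200⟩]

/-- The split tree, four cells with a small fourth cell. -/
def treeFour : Tree :=
  (.split 0 166667
  (.split 0 83333
   (.l4 300 148 148)
   (.split 1 50500
    (.l4 181 78 189)
    (.l4 124 78 85)))
  (.split 0 250000
   (.split 1 50500
    (.split 0 208333
     (.split 1 25250
      (.l3 124 74 266)
      (.l4 123 74 112))
     (.split 1 25250
      (.l3 106 74 266)
      (.l4 105 74 112)))
    (.l4 96 74 85))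
   (.split 1 50500
    (.split 0 291667
     (.split 1 25250
      (.l3 96 76 266)
      (.split 0 270833
       (.l4 95 77 112)
       (.split 1 37875
        (.l3 90 80 120)
        (.l4 90 80 104))))
     (.split 1 25250
      (.l3 90 84 266)
      (.split 0 312500
       (.split 1 37875
        (.l3 90 84 120)
        (.split 0 302083
         (.l4 90 78 104)
         (.split 1 44187
          (.l3 89 85 107)
          (.l4 84 85 101))))
       (.split 1 37875
        (.l3 83 83 120)
        (.split 0 322917
         (.split 1 44187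
          (.l3 83 83 107)
          (.l4 83 83 101))
         .none)))))
    (.l4 84 79 85))))

theorem coversFour : covers segsFour 0 = true := by decide +kernel

theorem checkFour : check segsFour 3 treeFour
    ⟨0, 333334 / 1000000, 0, 101000 / 1000000, 0, (0 : ℚ)⟩ = true := by
  decide +kernel

end Vale.Agent.P226.Cert
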