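import Vale.Agent.P226.Cert.Facts

/-!
# Soundness of the checker
-/

open Real

namespace Vale.Agent.P226.Cert

variable {segs : List Seg} {M : ℕ} {r R E p : ℕ → ℝ} {B : Box}

lemma third_le (hF : Facts segs M r R E p) :
    r 2 ^ 2 ≤ r 1 ^ 2 ∧ r 2 ^ 2 ≤ r 0 ^ 2 ∧ r 3 ^ 2 ≤ r 2 ^ 2 ∧ r 4 ^ 2 ≤ r 3 ^ 2 :=
  ⟨pow_le_pow_left₀ (hF.r_nonneg _) (hF.r_anti 1 2 (by norm_num)) 2,
    pow_le_pow_left₀ (hF.r_nonneg _) (hF.r_anti 0 2 (by norm_num)) 2,
    pow_le_pow_left₀ (hF.r_nonneg _) (hF.r_anti 2 3 (by norm_num)) 2,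
    pow_le_pow_left₀ (hF.r_nonneg _) (hF.r_anti 3 4 (by norm_num)) 2⟩

lemma sq_le_four_ninths (hF : Facts segs M r R E p) (i : ℕ) : r i ^ 2 ≤ 4 / 9 :=
  (pow_le_pow_left₀ (hF.r_nonneg i) (hF.r_le i) 2).trans (by norm_num)

lemma top4_spec (hF : Facts segs M r R E p) (hB : Mem B r) (hc : covers segs 0 = true)
    {b b2 b3 : ℚ} (hb : 0 ≤ b) (hb2 : 0 ≤ b2) (hb3 : 0 ≤ b3) :
    (top4 segs B b b2 b3 : ℝ) - (b : ℝ) * E 4 + (cs : ℝ) * R 4 ≤ 1 := by
  obtain ⟨t1, t0, -, -⟩ := third_le hF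
  have a0 := alpha_le hc hb (hF.r_nonneg 0) (hF.r_le 0) (hB.L2.trans t0)
    (hi := 4 / 9) (by push_cast; exact sq_le_four_ninths hF 0) (hF.p_ge 0 (by norm_num))
  have a1 := alpha_le hc hb (hF.r_nonneg 1) (hF.r_le 1) (hB.L2.trans t1)
    (hi := 4 / 9) (by push_cast; exact sq_le_four_ninths hF 1) (hF.p_ge 1 (by norm_num))
  have a2 := alpha_le hc hb2 (hF.r_nonneg 2) (hF.r_le 2) hB.L2 hB.H2 (hF.p_ge 2 (by norm_num))
  have a3 := alpha_le hc hb3 (hF.r_nonneg 3) (hF.r_le 3) hB.L3 hB.H3 (hF.p_ge 3 (by norm_num))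
  have e2 := endMin_le (d := b2 - b) hB.L2 hB.H2
  have e3 := endMin_le (d := b3 - b) hB.L3 hB.H3
  push_cast at e2 e3
  have hn := congrArg (fun t => (b : ℝ) * t) hF.norm
  simp only [mul_add, mul_one] at hn
  rw [top4]
  push_cast
  linarith [hF.sum4]

lemma top5_spec (hF : Facts segs M r R E p) (hB : Mem B r) (hc : covers segs 0 = true)
    {b b2 b3 b4 : ℚ} (hb : 0 ≤ b) (hb2 : 0 ≤ b2) (hb3 : 0 ≤ b3) (hb4 : 0 ≤ b4) :
    (top5 segs B b b2 b3 b4 : ℝ) - (b : ℝ) * E 5 + (cs : ℝ) * R 5 ≤ 1 := by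
  obtain ⟨t1, t0, -, -⟩ := third_le hF
  have hl4 : (B.l : ℝ) ^ 2 ≤ r 4 ^ 2 :=
    pow_le_pow_left₀ (by exact_mod_cast hB.l_nonneg) hB.l 2
  have hU4 : r 4 ^ 2 ≤ (B.U : ℝ) ^ 2 := pow_le_pow_left₀ (hF.r_nonneg 4) hB.U 2
  have a0 := alpha_le hc hb (hF.r_nonneg 0) (hF.r_le 0) (hB.L2.trans t0)
    (hi := 4 / 9) (by push_cast; exact sq_le_four_ninths hF 0) (hF.p_ge 0 (by norm_num))
  have a1 := alpha_le hc hb (hF.r_nonneg 1) (hF.r_le 1) (hB.L2.trans t1)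
    (hi := 4 / 9) (by push_cast; exact sq_le_four_ninths hF 1) (hF.p_ge 1 (by norm_num))
  have a2 := alpha_le hc hb2 (hF.r_nonneg 2) (hF.r_le 2) hB.L2 hB.H2 (hF.p_ge 2 (by norm_num))
  have a3 := alpha_le hc hb3 (hF.r_nonneg 3) (hF.r_le 3) hB.L3 hB.H3 (hF.p_ge 3 (by norm_num))
  have a4 := alpha_le hc hb4 (hF.r_nonneg 4) (hF.r_le 4) (lo := B.l ^ 2) (hi := B.U ^ 2)
    (by push_cast; exact hl4) (by push_cast; exact hU4) (hF.p_ge 4 (by norm_num))
  have e2 := endMin_le (d := b2 - b) hB.L2 hB.H2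
  have e3 := endMin_le (d := b3 - b) hB.L3 hB.H3
  have e4 := endMin_le (d := b4 - b) (lo := B.l ^ 2) (hi := B.U ^ 2) (x := r 4 ^ 2)
    (by push_cast; exact hl4) (by push_cast; exact hU4)
  push_cast at e2 e3 e4
  have hn := congrArg (fun t => (b : ℝ) * t) hF.norm
  simp only [mul_add, mul_one, hF.E_succ 4] at hn
  rw [top5]
  push_cast
  linarith [hF.sum5]

lemma E4_le (hF : Facts segs M r R E p) (hB : Mem B r) :
    E 4 ≤ ((1 - (3 * B.L2 + B.L3) : ℚ) : ℝ) := by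
  obtain ⟨t1, t0, -, -⟩ := third_le hF
  push_cast
  linarith [hF.norm, hB.L2, hB.L3]

lemma E_le_mul (hF : Facts segs M r R E p) {m : ℕ} {u X : ℝ} (hu : r m ≤ u) (hX : R m ≤ X) :
    E m ≤ u * X :=
  (hF.E_le m).trans (mul_le_mul hu hX (hF.R_nonneg m) ((hF.r_nonneg m).trans hu))

lemma leaf4_sound (hF : Facts segs M r R E p) (hB : Mem B r) (hc : covers segs 0 = true)
    {b b2 b3 : ℚ} (h : leaf4 segs M B b b2 b3 = true) : False := by
  simp only [leaf4, Bool.and_eq_true, decide_eq_true_eq] at h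
  obtain ⟨⟨⟨hb, hb2⟩, hb3⟩, h⟩ := h
  have hT := top4_spec hF hB hc hb hb2 hb3
  set T := top4 segs B b b2 b3
  set Em := 1 - (3 * B.L2 + B.L3) with hEm
  have hEm' : E 4 ≤ (Em : ℝ) := E4_le hF hB
  set X := budget T b Em B.U with hX
  have hX' : R 4 ≤ (X : ℝ) := budget_spec hT hb hEm' (E_le_mul hF hB.U le_rfl)
  set u := min B.U X with hu
  have hr4R : r 4 ≤ R 4 := by linarith [hF.R_succ 4, hF.R_nonneg 5]
  have hu' : r 4 ≤ (u : ℝ) := by
    rw [hu]; push_cast; exact le_min hB.U (hr4R.trans hX')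
  set Y := X - B.l with hY
  have hY' : R 5 ≤ (Y : ℝ) := by
    rw [hY]; push_cast; linarith [hF.R_succ 4, hB.l]
  set e4 := min (u * X) Em with he4
  have he4' : E 4 ≤ (e4 : ℝ) := by
    rw [he4]; push_cast; exact le_min (E_le_mul hF hu' hX') hEm'
  set a1 := max B.L2 (1 - 4 / 9 - B.H2 - B.H3 - e4) with ha1
  obtain ⟨t1, t0, -, -⟩ := third_le hF
  have ha1' : (a1 : ℝ) ≤ r 1 ^ 2 := by
    rw [ha1]; push_cast
    exact max_le (hB.L2.trans t1)
      (by linarith [hF.norm, sq_le_four_ninths hF 0, hB.H2, hB.H3])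
  set θ := fun m : ℕ =>
    thr m (pairW a1 B.L2 B.L3 (if m = 4 then e4 else min u (Y / ((m : ℚ) - 4)) * Y)) with hθdef
  have hθ : ∀ j, 4 ≤ j → j ≤ M → (θ j : ℝ) ≤ (qc j : ℝ) * r j + (ec j : ℝ) * R j := by
    intro j hj hjM
    refine drop_thr hF hj hjM ha1' hB.L2 (le_max_left _ _) hB.L3 hB.L2_nonneg ?_
    split
    · subst j; exact he4'
    · push_cast
      have hR := sub_mul_le_R hF j 5 (by omega)
      refine E_le_mul hF (le_min ((hF.r_anti 4 j hj).trans hu') ?_) ?_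
      · have hj4 : (0 : ℝ) < (j : ℝ) - 4 := by
          have : (5 : ℝ) ≤ (j : ℝ) := by exact_mod_cast (show 5 ≤ j by omega)
          linarith
        rw [le_div_iff₀ hj4]
        rw [Nat.cast_sub (by omega : 5 ≤ j)] at hR
        push_cast at hR
        have := hF.R_succ j
        have := hF.R_nonneg (j + 1)
        linarith
      · have : 0 ≤ ((j - 5 : ℕ) : ℝ) * r j := mul_nonneg (Nat.cast_nonneg _) (hF.r_nonneg j)
        linarith
  simp only [Bool.or_eq_true, Bool.and_eq_true, decide_eq_true_eq] at h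
  rcases h with (((h | h) | h) | h) | ⟨hM, (h | h) | h⟩
  · have : (Em : ℝ) < ((0 : ℚ) : ℝ) := by exact_mod_cast h
    push_cast at this
    linarith [hF.E_nonneg 4]
  · have : (X : ℝ) < ((0 : ℚ) : ℝ) := by exact_mod_cast h
    push_cast at this
    linarith [hF.R_nonneg 4]
  · have : (X : ℝ) < (B.l : ℝ) := by exact_mod_cast h
    linarith [hB.l]
  · have : ((2 * (4 / 9) + B.H2 + B.H3 + e4 : ℚ) : ℝ) < ((1 : ℚ) : ℝ) := by exact_mod_cast h
    push_cast at this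
    linarith [hF.norm, sq_le_four_ninths hF 0, sq_le_four_ninths hF 1, hB.H2, hB.H3]
  · have hlt : ((qc 4 * B.U + ec 4 * X : ℚ) : ℝ) < (θ 4 : ℝ) := by exact_mod_cast h
    push_cast at hlt
    have hq : (0 : ℝ) ≤ (qc 4 : ℝ) := by exact_mod_cast (qc_pos 4).le
    have he : (0 : ℝ) ≤ (ec 4 : ℝ) := by
      have : (0 : ℚ) ≤ ec 4 := by rw [ec, sw]; norm_num
      exact_mod_cast this
    have := hθ 4 le_rfl hM
    linarith [mul_le_mul_of_nonneg_left hB.U hq, mul_le_mul_of_nonneg_left hX' he]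
  all_goals
    have hc5 := chainR_spec hF θ (M - 4) 5 (by omega) fun j h1 h2 =>
      hθ j (by omega) (by omega)
  · have : (X : ℝ) < ((B.l + chainR θ (M - 4) 5 : ℚ) : ℝ) := by exact_mod_cast h
    push_cast at this
    linarith [hF.R_succ 4, hB.l]
  · have : (X : ℝ) < (stepR 4 (θ 4) (chainR θ (M - 4) 5) : ℝ) := by exact_mod_cast h
    linarith [stepR_spec hF hc5 (hθ 4 le_rfl hM)]

lemma leaf5_sound (hF : Facts segs M r R E p) (hB : Mem B r) (hc : covers segs 0 = true)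
    (hM : 4 ≤ M) {b b2 b3 b4 : ℚ} (h : leaf5 segs M B b b2 b3 b4 = true) : False := by
  simp only [leaf5, Bool.and_eq_true, decide_eq_true_eq] at h
  obtain ⟨⟨⟨⟨hb, hb2⟩, hb3⟩, hb4⟩, h⟩ := h
  have hT := top5_spec hF hB hc hb hb2 hb3 hb4
  set T := top5 segs B b b2 b3 b4
  set Em := 1 - (3 * B.L2 + B.L3 + B.l ^ 2) with hEm
  have hl4 : (B.l : ℝ) ^ 2 ≤ r 4 ^ 2 :=
    pow_le_pow_left₀ (by exact_mod_cast hB.l_nonneg) hB.l 2
  obtain ⟨t1, t0, -, -⟩ := third_le hF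
  have hEm' : E 5 ≤ (Em : ℝ) := by
    rw [hEm]; push_cast
    linarith [hF.norm, hF.E_succ 4, hB.L2, hB.L3]
  have h5U : r 5 ≤ (B.U : ℝ) := (hF.r_anti 4 5 (by norm_num)).trans hB.U
  set X0 := budget T b Em B.U with hX0
  have hX0' : R 5 ≤ (X0 : ℝ) := budget_spec hT hb hEm' (E_le_mul hF h5U le_rfl)
  have hr5R : r 5 ≤ R 5 := by linarith [hF.R_succ 5, hF.R_nonneg 6]
  have h5m : r 5 ≤ ((min B.U X0 : ℚ) : ℝ) := by
    push_cast; exact le_min h5U (hr5R.trans hX0')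
  set X := budget T b Em (min B.U X0) with hX
  have hX' : R 5 ≤ (X : ℝ) := budget_spec hT hb hEm' (E_le_mul hF h5m le_rfl)
  set u := min B.U X with hu
  have hu' : r 5 ≤ (u : ℝ) := by
    rw [hu]; push_cast; exact le_min h5U (hr5R.trans hX')
  set e5 := min (u * X) Em with he5
  have he5' : E 5 ≤ (e5 : ℝ) := by
    rw [he5]; push_cast; exact le_min (E_le_mul hF hu' hX') hEm'
  set a1 := max B.L2 (1 - 4 / 9 - B.H2 - B.H3 - B.U ^ 2 - e5) with ha1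
  have hU4 : r 4 ^ 2 ≤ (B.U : ℝ) ^ 2 := pow_le_pow_left₀ (hF.r_nonneg 4) hB.U 2
  have ha1' : (a1 : ℝ) ≤ r 1 ^ 2 := by
    rw [ha1]; push_cast
    exact max_le (hB.L2.trans t1)
      (by linarith [hF.norm, hF.E_succ 4, sq_le_four_ninths hF 0, hB.H2, hB.H3])
  simp only [Bool.or_eq_true, decide_eq_true_eq] at h
  rcases h with ((h | h) | h) | h
  · have : (Em : ℝ) < ((0 : ℚ) : ℝ) := by exact_mod_cast h
    push_cast at this
    linarith [hF.E_nonneg 5]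
  · have : (X0 : ℝ) < ((0 : ℚ) : ℝ) := by exact_mod_cast h
    push_cast at this
    linarith [hF.R_nonneg 5]
  · have : (X : ℝ) < ((0 : ℚ) : ℝ) := by exact_mod_cast h
    push_cast at this
    linarith [hF.R_nonneg 5]
  · set θ := fun m : ℕ =>
      thr m (pairW a1 B.L2 B.L3 (if m = 5 then e5 else min u (X / ((m : ℚ) - 4)) * X)) with hθdef
    have hθ : ∀ j, 5 ≤ j → j ≤ M → (θ j : ℝ) ≤ (qc j : ℝ) * r j + (ec j : ℝ) * R j := by
      intro j hj hjM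
      refine drop_thr hF (by omega) hjM ha1' hB.L2 (le_max_left _ _) hB.L3 hB.L2_nonneg ?_
      split
      · subst j; exact he5'
      · push_cast
        have hR := sub_mul_le_R hF j 5 (by omega)
        rw [Nat.cast_sub (by omega : 5 ≤ j)] at hR
        push_cast at hR
        have h5j : (5 : ℝ) ≤ (j : ℝ) := by exact_mod_cast hj
        refine E_le_mul hF (le_min ((hF.r_anti 5 j hj).trans hu') ?_) ?_
        · rw [le_div_iff₀ (by linarith)]
          have := hF.R_succ j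
          have := hF.R_nonneg (j + 1)
          linarith
        · have : 0 ≤ ((j : ℝ) - 5) * r j := mul_nonneg (by linarith) (hF.r_nonneg j)
          linarith
    have hc5 := chainR_spec hF θ (M - 4) 5 (by omega) fun j h1 h2 => hθ j h1 (by omega)
    have : (X : ℝ) < (chainR θ (M - 4) 5 : ℝ) := by exact_mod_cast h
    linarith

/-- The extreme point of a sorted triple with given sum. -/
lemma sorted_sq_sum_le {x y z hi mid lo : ℝ} (hs : x + y + z = 1) (hm : hi + mid + lo = 1)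
    (hx : x ≤ hi) (hz : lo ≤ z) (hyx : y ≤ x) (hzy : z ≤ y) :
    x ^ 2 + y ^ 2 + z ^ 2 ≤ hi ^ 2 + mid ^ 2 + lo ^ 2 := by
  obtain rfl : mid = 1 - hi - lo := by linarith
  obtain rfl : y = 1 - x - z := by linarith
  nlinarith [mul_nonneg (sub_nonneg.2 hx) (show 0 ≤ x - (1 - x - z) by linarith),
    mul_nonneg (sub_nonneg.2 hz) (show 0 ≤ (1 - x - z) - z by linarith),
    sq_nonneg ((hi - x) - (z - lo)), sq_nonneg (hi - x), sq_nonneg (z - lo)]

lemma leaf3_sound (hF : Facts segs M r R E p) (hB : Mem B r) (hc : covers segs 0 = true)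
    (hM : 3 ≤ M) {b b2 b3 : ℚ} (h : leaf3 segs M B b b2 b3 = true) : False := by
  simp only [leaf3, Bool.and_eq_true, Bool.or_eq_true, decide_eq_true_eq] at h
  obtain ⟨⟨⟨hb, hb2⟩, hb3⟩, h⟩ := h
  obtain ⟨t1, t0, t3, -⟩ := third_le hF
  set X := if M ≤ 3 then (0 : ℚ) else budget (top4 segs B b b2 b3) b (1 - (3 * B.L2 + B.L3)) B.U
    with hX
  have hX' : R 4 ≤ (X : ℝ) := by
    rw [hX]
    split
    · simp [hF.small ‹_›]
    · exact budget_spec (top4_spec hF hB hc hb hb2 hb3) hb (E4_le hF hB) (E_le_mul hF hB.U le_rfl)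
  have hu' : r 4 ≤ ((min B.U X : ℚ) : ℝ) := by
    push_cast
    exact le_min hB.U (le_trans (by linarith [hF.R_succ 4, hF.R_nonneg 5]) hX')
  rcases h with h | ⟨⟨⟨⟨hs, hs1⟩, hlm⟩, hh0⟩, h⟩
  · have : (X : ℝ) < ((0 : ℚ) : ℝ) := by exact_mod_cast h
    push_cast at this
    linarith [hF.R_nonneg 4]
  set e4 := min B.U X * X with he4
  have he4' : E 4 ≤ (e4 : ℝ) := by
    rw [he4]; push_cast
    exact E_le_mul hF (by simpa using hu') hX'
  set Eb := B.H3 + e4 with hEb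
  have hE3 : E 3 ≤ (Eb : ℝ) := by
    rw [hEb, hF.E_succ 3]; push_cast; linarith [hB.H3]
  set s := 1 - Eb with hsdef
  set s1 := 1 - B.L3 with hs1def
  set lo := B.L2 / s1 with hlo
  set hi := min (4 / 9 / s) (1 - 2 * lo) with hhi
  set mid := 1 - hi - lo with hmid
  set h0 := (1 - 2 * (hi ^ 2 + mid ^ 2 + lo ^ 2)) / 4 with hh0def
  set W := s ^ 2 * h0 - Eb * ((1 - B.L3 - 2 * B.L2) / 2 + 2 / 7 * Eb) with hW
  have hnorm := hF.norm
  have hE34 := hF.E_succ 3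
  have hsR : (0 : ℝ) < (s : ℝ) := by exact_mod_cast hs
  have hs1R : (0 : ℝ) < (s1 : ℝ) := by exact_mod_cast hs1
  set S := r 0 ^ 2 + r 1 ^ 2 + r 2 ^ 2 with hS
  have hSs : (s : ℝ) ≤ S := by
    rw [hsdef]; push_cast; linarith
  have hSs1 : S ≤ (s1 : ℝ) := by
    rw [hs1def]; push_cast; linarith [hB.L3, hF.E_nonneg 4]
  have hS0 : 0 < S := hsR.trans_le hSs
  have hzlo : (lo : ℝ) ≤ r 2 ^ 2 / S := by
    rw [hlo]; push_cast
    exact div_le_div₀ (sq_nonneg _) hB.L2 hS0 hSs1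
  have hxyz : r 0 ^ 2 / S + r 1 ^ 2 / S + r 2 ^ 2 / S = 1 := by
    field_simp; linarith
  have hyx : r 1 ^ 2 / S ≤ r 0 ^ 2 / S :=
    div_le_div_of_nonneg_right (pow_le_pow_left₀ (hF.r_nonneg _) (hF.r_anti 0 1 (by norm_num)) 2)
      hS0.le
  have hzy : r 2 ^ 2 / S ≤ r 1 ^ 2 / S := div_le_div_of_nonneg_right t1 hS0.le
  have hxhi : r 0 ^ 2 / S ≤ (hi : ℝ) := by
    rw [hhi]; push_cast
    refine le_min (div_le_div₀ (by norm_num) (sq_le_four_ninths hF 0) hsR hSs) ?_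
    linarith
  have hsq := sorted_sq_sum_le hxyz (mid := (mid : ℝ)) (lo := (lo : ℝ)) (hi := (hi : ℝ))
    (by rw [hmid]; push_cast; ring) hxhi hzlo hyx hzy
  have hheron : (s : ℝ) ^ 2 * (h0 : ℝ) ≤ Full.heron (r 0 ^ 2) (r 1 ^ 2) (r 2 ^ 2) := by
    have e : Full.heron (r 0 ^ 2) (r 1 ^ 2) (r 2 ^ 2) =
        S ^ 2 * ((1 - 2 * ((r 0 ^ 2 / S) ^ 2 + (r 1 ^ 2 / S) ^ 2 + (r 2 ^ 2 / S) ^ 2)) / 4) := by
      rw [Full.heron]; field_simp; rw [hS]; ring
    have h00 : (0 : ℝ) ≤ (h0 : ℝ) := by exact_mod_cast hh0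
    rw [e]
    refine mul_le_mul (pow_le_pow_left₀ hsR.le hSs 2) ?_ h00 (sq_nonneg _)
    rw [hh0def]; push_cast
    linarith
  have hc0 : (r 0 ^ 2 + r 1 ^ 2 - r 2 ^ 2) / 2 ≤
      (1 - (B.L3 : ℝ) - 2 * (B.L2 : ℝ)) / 2 := by
    linarith [hB.L2, hB.L3, hF.E_nonneg 4]
  have hc1 : 0 ≤ (r 0 ^ 2 + r 1 ^ 2 - r 2 ^ 2) / 2 + 2 / 7 * E 3 := by
    linarith [hF.E_nonneg 3, sq_nonneg (r 1)]
  have hWle : (W : ℝ) ≤ Full.heron (r 0 ^ 2) (r 1 ^ 2) (r 2 ^ 2) -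
      E 3 * ((r 0 ^ 2 + r 1 ^ 2 - r 2 ^ 2) / 2 + 2 / 7 * E 3) := by
    have hm := mul_le_mul hE3 (show (r 0 ^ 2 + r 1 ^ 2 - r 2 ^ 2) / 2 + 2 / 7 * E 3 ≤
      (1 - (B.L3 : ℝ) - 2 * (B.L2 : ℝ)) / 2 + 2 / 7 * (Eb : ℝ) by linarith) hc1
      ((hF.E_nonneg 3).trans hE3)
    rw [hW]; push_cast
    linarith
  have hthr : (thr 3 W : ℝ) ≤ (qc 3 : ℝ) * r 3 + (ec 3 : ℝ) * R 3 := by
    refine le_trans ?_ (linear_amgm (by norm_num) (hF.r_nonneg 3) (hF.R_nonneg 3) (hF.E_le 3))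
    refine thr_spec (add_nonneg (hF.r_nonneg 3) (by positivity)) fun hW0 => ?_
    have := hF.drop3 hM (W : ℝ) (by exact_mod_cast hW0) hWle
    norm_num at this ⊢
    linarith
  have hlt : ((qc 3 * sqUp B.H3 + ec 3 * (sqUp B.H3 + X) : ℚ) : ℝ) < (thr 3 W : ℝ) := by
    exact_mod_cast h
  push_cast at hlt
  have h3 : r 3 ≤ (sqUp B.H3 : ℝ) := le_sqUp hB.H3
  have hq : (0 : ℝ) ≤ (qc 3 : ℝ) := by exact_mod_cast (qc_pos 3).le
  have he : (0 : ℝ) ≤ (ec 3 : ℝ) := by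
    have : (0 : ℚ) ≤ ec 3 := by rw [ec, sw]; norm_num
    exact_mod_cast this
  have h3R : R 3 ≤ (sqUp B.H3 : ℝ) + (X : ℝ) := by linarith [hF.R_succ 3]
  linarith [mul_le_mul_of_nonneg_left h3 hq, mul_le_mul_of_nonneg_left h3R he]

lemma Mem.clip (hF : Facts segs M r R E p) (hB : Mem B r) : Mem (Cert.clip B) r := by
  obtain ⟨-, -, t3, t4⟩ := third_le hF
  have h3 : r 3 ^ 2 ≤ ((min B.H3 B.H2 : ℚ) : ℝ) := by
    push_cast; exact le_min hB.H3 (t3.trans hB.H2)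
  refine ⟨hB.L2, hB.H2, hB.L3, h3, hB.l, ?_, hB.l_nonneg, hB.L2_nonneg, hB.L3_nonneg⟩
  show r 4 ≤ ((min B.U (sqUp (min B.H3 B.H2)) : ℚ) : ℝ)
  rw [Rat.cast_min]
  exact le_min hB.U (le_sqUp (t4.trans h3))

lemma isEmpty_sound (hF : Facts segs M r R E p) (hB : Mem B r) (h : isEmpty M B = true) :
    False := by
  obtain ⟨t1, t0, t3, t4⟩ := third_le hF
  simp only [isEmpty, Bool.or_eq_true, decide_eq_true_eq] at h
  have hl4 : (B.l : ℝ) ^ 2 ≤ r 4 ^ 2 :=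
    pow_le_pow_left₀ (by exact_mod_cast hB.l_nonneg) hB.l 2
  rcases h with (h | h) | h
  · have : (B.H2 : ℝ) < (B.L3 : ℝ) := by exact_mod_cast h
    linarith [hB.H2, hB.L3]
  · have : ((min B.H3 B.H2 : ℚ) : ℝ) < ((B.l ^ 2 : ℚ) : ℝ) := by exact_mod_cast h
    push_cast at this
    rcases min_lt_iff.1 this with h | h <;> linarith [hB.H2, hB.H3]
  · split at h
    · have : ((1 : ℚ) : ℝ) < ((3 * B.L2 + B.L3 + B.l ^ 2 : ℚ) : ℝ) := by exact_mod_cast h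
      push_cast at this
      linarith [hF.norm, hF.E_succ 4, hF.E_nonneg 5, hB.L2, hB.L3]
    · have : ((1 : ℚ) : ℝ) < ((3 * B.L2 + B.L3 + 0 : ℚ) : ℝ) := by exact_mod_cast h
      push_cast at this
      linarith [hF.norm, hF.E_nonneg 4, hB.L2, hB.L3]

/-- A passing certificate refutes the facts. -/
theorem check_sound (hF : Facts segs M r R E p) (hc : covers segs 0 = true) (hM : 3 ≤ M) :
    ∀ (t : Tree) (B : Box), check segs M t B = true → Mem B r → False := by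
  intro t
  induction t with
  | none => intro B h hB; exact isEmpty_sound hF hB h
  | l3 b b2 b3 => intro B h hB; exact leaf3_sound hF (hB.clip hF) hc hM h
  | l4 b b2 b3 => intro B h hB; exact leaf4_sound hF (hB.clip hF) hc h
  | l5 b b2 b3 b4 =>
    intro B h hB
    simp only [check, Bool.and_eq_true, decide_eq_true_eq] at h
    exact leaf5_sound hF (hB.clip hF) hc h.1 h.2
  | split i a L R ihL ihR =>
    intro B h hB
    simp only [check, Bool.and_eq_true] at h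
    have hx : (0 : ℚ) ≤ (a : ℚ) / 1000000 := by positivity
    rcases em (i = 0) with hi | hi
    · simp only [hi, if_pos] at h
      rcases le_total (r 2 ^ 2) (((a : ℚ) / 1000000 : ℚ) : ℝ) with hle | hle
      · exact ihL _ h.1 { hB with H2 := hle }
      · exact ihR _ h.2 { hB with L2 := hle, L2_nonneg := hx }
    rcases em (i = 1) with hi1 | hi1
    · simp only [hi1, one_ne_zero, if_false, if_pos] at h
      rcases le_total (r 3 ^ 2) (((a : ℚ) / 1000000 : ℚ) : ℝ) with hle | hle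
      · exact ihL _ h.1 { hB with H3 := hle }
      · exact ihR _ h.2 { hB with L3 := hle, L3_nonneg := hx }
    · simp only [hi, hi1, if_false] at h
      rcases le_total (r 4) (((a : ℚ) / 1000000 : ℚ) : ℝ) with hle | hle
      · exact ihL _ h.1 { hB with U := hle }
      · exact ihR _ h.2 { hB with l := hle, l_nonneg := hx }

end Vale.Agent.P226.Cert
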