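import Vale.Agent.P226.Cert.Check

/-!
# The scalar certificate for nine or ten cells
-/

namespace Vale.Agent.P226.Cert

/-- Linear lower bounds for the cell measures, nine or ten cells. -/
def segsTen : List Seg :=
  [⟨(0 : ℚ), 19969 / 100000, 4231 / 10000, (0 : ℚ)⟩,
   ⟨19969 / 100000, 35227 / 100000, 437247 / 1000000, -113 / 40000⟩,
   ⟨35227 / 100000, 2691 / 6250, 224037 / 500000, -6639 / 1000000⟩,
   ⟨2691 / 6250, 9041 / 20000, 455959 / 1000000, -5017 / 500000⟩,
   ⟨9041 / 20000, 6247 / 12500, 176791 / 250000, -12359 / 100000⟩,
   ⟨6247 / 12500, 7129 / 12500, 85449 / 100000, -98609 / 500000⟩,
   ⟨7129 / 12500, 63329 / 100000, 256347 / 200000, -110221 / 250000⟩,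
   ⟨63329 / 100000, 2 / 3, 256347 / 100000, -250519 / 200000⟩]

/-- The split tree, nine or ten cells. -/
def treeTen : Tree :=
  (.split 1 125000
  (.split 0 166667
   (.split 2 176777
    (.split 1 62500
     (.split 0 83333
      (.l4 204 148 170)
      (.split 2 88388
       (.l4 197 63 170)
       (.split 1 31250
        (.l5 197 63 239 160)
        (.split 0 125000
         (.l4 197 68 101)
         (.l5 107 59 101 160)))))
     (.split 0 83333
      (.l4 198 148 81)
      (.l4 107 63 72)))
    (.split 1 62500
     (.split 0 83333
      (.l4 159 148 170)
      (.l5 107 63 170 101))
     (.split 0 83333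
      (.l4 138 148 81)
      (.l5 106 63 72 82))))
   (.split 2 176777
    (.split 1 62500
     (.split 0 250000
      (.split 2 88388
       (.split 1 31250
        (.split 0 208333
         (.l4 107 53 239)
         (.l4 107 74 239))
        (.l4 107 74 101))
       (.split 1 31250
        (.split 0 208333
         (.split 2 132582
          (.l4 107 53 239)
          (.l5 107 53 239 137))
         (.split 2 132582
          (.split 1 15625
           (.l3 107 74 300)
           (.l4 107 74 140))
          (.split 1 15625
           .none
           (.l4 107 74 140))))
        (.l4 107 74 101)))
      (.split 2 88388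
       (.l4 106 80 170)
       (.split 1 31250
        (.split 0 291667
         (.split 2 132582
          (.split 1 15625
           (.l3 106 82 300)
           (.l4 106 82 140))
          (.split 1 15625
           .none
           (.l4 106 82 140)))
         (.split 2 132582
          (.split 1 15625
           (.l3 106 77 300)
           (.l4 106 77 140))
          (.split 1 15625
           .none
           (.l4 106 77 140))))
        (.l4 106 80 101))))
     (.split 0 250000
      (.split 2 88388
       (.split 1 93750
        (.l4 106 74 79)
        (.split 0 208333
         (.l4 106 53 66)
         (.l4 106 74 66)))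
       (.split 1 93750
        (.l4 106 74 79)
        (.split 0 208333
         (.l4 106 53 66)
         (.l5 80 74 66 160))))
      (.l4 80 80 72)))
    (.split 1 62500
     (.split 0 250000
      (.split 1 31250
       .none
       (.l4 107 74 101))
      (.split 1 31250
       .none
       (.l5 80 80 101 101)))
     (.l5 80 79 72 82))))
  (.split 0 166667
   (.split 2 225000
    (.split 0 83333
     .none
     (.split 2 112500
      (.split 0 125000
       (.l4 107 68 64)
       (.l4 106 59 59))
      (.l5 106 63 59 126)))
    (.split 0 83333
     .none
     (.l5 80 63 59 70)))
   (.split 2 225000
    (.split 1 187500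
     (.split 0 250000
      (.split 2 112500
       (.split 1 156250
        (.split 0 208333
         (.split 2 56250
          (.l4 106 53 60)
          (.split 1 140625
           (.l4 106 53 62)
           (.split 0 187500
            (.l4 106 53 58)
            (.l5 80 52 58 251))))
         (.l4 80 74 60))
        (.split 0 208333
         (.split 2 56250
          (.l4 80 53 54)
          (.split 1 171875
           (.split 0 187500
            (.split 2 84375
             (.l4 106 53 55)
             (.l4 106 53 55))
            (.l4 80 52 55))
           (.split 0 187500
            (.l4 80 53 53)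
            (.l4 80 52 53))))
         (.l4 80 74 54)))
       (.l5 80 74 57 126))
      (.split 2 112500
       (.l4 80 80 57)
       (.l4 80 80 57)))
     (.split 0 250000
      (.split 2 112500
       (.split 1 218750
        (.split 0 208333
         (.split 2 56250
          (.l4 80 53 52)
          (.split 0 187500
           (.l4 80 53 53)
           (.split 2 84375
            (.l4 80 52 52)
            (.l4 80 52 52))))
         (.split 2 56250
          (.l4 80 74 52)
          (.split 1 203125
           (.l4 80 74 52)
           (.l4 80 74 77))))
        (.split 0 208333
         .none
         (.l4 80 74 73)))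
       (.split 1 218750
        (.split 0 208333
         (.l5 80 53 52 126)
         (.l5 80 74 52 126))
        (.l5 80 74 73 126)))
      (.split 2 112500
       (.l4 79 80 74)
       (.l4 79 80 74))))
    (.split 1 187500
     (.split 0 250000
      (.split 2 329006
       (.l5 80 74 57 79)
       (.split 1 156250
        (.l5 79 74 60 61)
        (.l5 74 74 54 59)))
      (.l4 80 80 57))
     (.split 0 250000
      (.split 2 337500
       (.l5 75 74 74 78)
       (.split 1 218750
        (.split 0 208333
         (.split 2 393750
          (.l5 75 53 52 61)
          (.split 0 187500
           (.l5 74 53 53 54)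
           (.split 2 421875
            (.l5 74 52 52 55)
            (.l5 74 52 52 52))))
         (.l5 73 74 52 57))
        (.l5 53 74 73 57)))
      (.l4 79 80 74))))))

theorem coversTen : covers segsTen 0 = true := by decide +kernel

theorem checkTen : check segsTen 8 treeTen
    ⟨0, 333334 / 1000000, 0, 250000 / 1000000, 0, 9 / 20⟩ = true := by
  decide +kernel

end Vale.Agent.P226.Cert
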